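import Crest.Agent.X212.Ten12.Lft
import Crest.Agent.X212.Mon62.Hyp
import Crest.Agent.X212.Cyc79.Cf
import Crest.Agent.X212.Cht98.Cov
import Crest.Agent.X212.Spn45.Lift
import Crest.Agent.X212.Mp86.Ctl

-- ▼ part X212/Cyt76/Res
section

/-!
# Row 212, CYC-T (helper76): families of sections and of operators over a Banach model
-/

set_option autoImplicit false
set_option linter.unusedSectionVars false
set_option maxSynthPendingDepth 3
noncomputable section
open scoped Manifold ContDiff Topology InnerProductSpace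
open MeasureTheory Set Function Filter

namespace Crest.Agent.X212.Cyt76
open An Sob92 Wz78 Cyc79 Ten12
open Mon62 (HT ic Mu QQ Adm)
open Wrd81 (GH QH)

variable {E : Type} [NormedAddCommGroup E] [NormedSpace ℝ E] [FiniteDimensional ℝ E]
  [MeasurableSpace E] [BorelSpace E]
  {HM : Type} [TopologicalSpace HM] {I : ModelWithCorners ℝ E HM} [I.Boundaryless]
  {M : Type} [TopologicalSpace M] [ChartedSpace HM M] [IsManifold I ∞ M]
  [MeasurableSpace M] [T2Space M] [BorelSpace M] [SecondCountableTopology M] {ι : Type} [Fintype ι]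
  {X P : Type} [NormedAddCommGroup X] [NormedSpace ℝ X] (pt : P → X)
  {U V W : Type} [NormedAddCommGroup U] [InnerProductSpace ℝ U] [CompleteSpace U]
  [NormedAddCommGroup V] [InnerProductSpace ℝ V] [CompleteSpace V]
  [NormedAddCommGroup W] [InnerProductSpace ℝ W] [CompleteSpace W]
  {κ : Type} [Fintype κ] [DecidableEq κ]
  {K : Type} [NormedAddCommGroup K] [InnerProductSpace ℝ K] [CompleteSpace K]

/-- families of multipliers -/
def MuF (F : Fr I M ι) (l : ℕ) (T : P → M → V →L[ℝ] W) : Prop := (∀ y, F.Cb (T y)) ∧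
  ∃ τ : X → HT F.toPre V l →L[ℝ] HT F.toPre W l, ContDiff ℝ ∞ τ ∧
    ∀ y, τ (pt y) = F.mulH l _ _ (T y)

/-- families of sections -/
def AY (F : Fr I M ι) (l : ℕ) (a : P → M → V) : Prop := (∀ y, Sm I (a y)) ∧
  ∃ δ : X → HT F.toPre V l, ContDiff ℝ ∞ δ ∧ ∀ y, Is F.toPre l _ (δ (pt y)) (a y)

/-- families of operators -/
def OP (F : Fr I M ι) (l : ℕ) (a : P → M → Fm κ K) : Prop :=
  ∃ S : X → K →L[ℝ] HT F.toPre (Eu κ) l, ContDiff ℝ ∞ S ∧
    ∀ y h, Is F.toPre l _ (S (pt y) h) fun z => ct h (a y z)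

/-- `b` is obtained from `a` by a smooth family of operators -/
def Tr (F : Fr I M ι) (l l' : ℕ) (a b : P → M → Fm κ K) : Prop := (∀ y, Sm I (b y)) ∧
  ∃ τ : X → HT F.toPre (Eu κ) l →L[ℝ] HT F.toPre (Eu κ) l', ContDiff ℝ ∞ τ ∧
    ∀ y h u, Is F.toPre l _ u (fun z => ct h (a y z)) →
      Is F.toPre l' _ (τ (pt y) u) fun z => ct h (b y z)

variable {pt} {F : Fr I M ι} {l l' j : ℕ}

theorem MuF.fixed {T : M → V →L[ℝ] W} (h : F.Cb T) : MuF pt F l fun _ => T :=
  ⟨fun _ => h, _, contDiff_const, fun _ => rfl⟩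

theorem MuF.add {S T : P → M → V →L[ℝ] W} (h : MuF pt F l S) (k : MuF pt F l T) :
    MuF pt F l fun y x => S y x + T y x :=
  let ⟨h1, _, h2, h3⟩ := h
  let ⟨k1, _, k2, k3⟩ := k
  ⟨fun y => Cb_add (h1 y) (k1 y), _, h2.add k2, fun y => by
    rw [h3, k3, ← mulH_add (h1 y) (Maps.triv _) (k1 y) (Maps.triv _)]; rfl⟩

section res
variable [FiniteDimensional ℝ V] {A : P → ι → M → V →L[ℝ] V}

/-- **the resolvent depends smoothly on the connection** -/
theorem exists_R (hd : DenseRange pt) {C : ℕ → ℝ} (hF : F.Tame C) (hA : ∀ y, Ok F (A y))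
    (h1 : ∀ c, MuF pt F l fun y => A y c) (h2 : ∀ c, MuF pt F (l + 1) fun y => A y c) :
    ∃ R : X → HT F.toPre V l →L[ℝ] HT F.toPre V (l + 2), ContDiff ℝ ∞ R ∧
      ∀ y, R (pt y) = GH F (A y) l := by
  choose T₁ a1 a2 using fun c => (h1 c).2
  choose T₂ b1 b2 using fun c => (h2 c).2
  let T : X → Mu F.toPre V l := fun x => (fun c => T₁ c x, fun c => T₂ c x)
  have hT : ∀ y, Mon62.RepM F.toPre (T (pt y)) (A y) := fun y =>
    ⟨fun c => by simp only [T, a2]; exact rep_mulH ((hA y).cb c) (Maps.triv _),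
      fun c => by simp only [T, b2]; exact rep_mulH ((hA y).cb c) (Maps.triv _)⟩
  have cT : Continuous T := (continuous_pi fun c => (a1 c).continuous).prodMk
    (continuous_pi fun c => (b1 c).continuous)
  have hi : ∀ x, (QQ F.toPre F l (T x)).IsInvertible := fun x => by
    obtain ⟨_, hK⟩ := Mon62.rb1_dr (V := V) (Mon62.dr_refl F) hF l ‖T x‖
    refine Mon62.isInvertible_of_bij (hK _ (map_mem_closure cT (hd x) ?_) le_rfl).1
    rintro _ ⟨y, rfl⟩
    exact ⟨A y, (hA y).mc.sm, (hA y).sk, hT y⟩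
  have cQ : ContDiff ℝ ∞ fun x => QQ F.toPre F l (T x) := contDiff_const.sub (ContDiff.sum fun c _ =>
    ((contDiff_const.add ((a1 c).clm_comp contDiff_const)).add contDiff_const).clm_comp
      (contDiff_const.add ((b1 c).clm_comp contDiff_const)))
  refine ⟨fun x => (QQ F.toPre F l (T x)).inverse, contDiff_iff_contDiffAt.2 fun x => ?_, fun y => ?_⟩
  · obtain ⟨e, he⟩ := hi x
    have := contDiffAt_map_inverse (n := ∞) e
    rw [he] at this
    exact this.comp x cQ.contDiffAt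
  · exact congrArg ContinuousLinearMap.inverse (RepT_eq (Mon62.rep_QQ (Mon62.act_self hF) (hT y))
      ((hA y).rh.ell.spec l).1 fun u => (Wrd81.lap1_eq F (A y) u.1).symm)

end res

namespace AY
variable {a b : P → M → V}

theorem congr (h : AY pt F l a) (e : ∀ y x, b y x = a y x) : AY pt F l b := by
  rwa [show b = a from funext₂ e]

theorem zero : AY pt F l fun _ _ => (0 : V) :=
  ⟨fun _ => contMDiff_const, _, contDiff_const, fun _ => Is.zero⟩

theorem add (h : AY pt F l a) (k : AY pt F l b) : AY pt F l fun y x => a y x + b y x :=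
  let ⟨h1, _, h2, h3⟩ := h
  let ⟨k1, _, k2, k3⟩ := k
  ⟨fun y => (h1 y).add (k1 y), _, h2.add k2, fun y => (h3 y).add (k3 y)⟩

theorem fixed [CompactSpace M] {a : M → V} (h : Sm I a) : AY pt F l fun _ => a :=
  ⟨fun _ => h, _, contDiff_const, fun _ => Is.toH ⟨a, mem_triv h (.of_compactSpace _)⟩⟩

theorem eq_toH [CompactSpace M] {a : M → V} (h : Sm I a) {u : HT F.toPre V l}
    (k : Is F.toPre l _ u a) : u = F.toH l _ ⟨a, mem_triv h (.of_compactSpace _)⟩ :=
  k.unique (Is.toH ⟨a, mem_triv h (.of_compactSpace _)⟩)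

theorem clm {T : M → V →L[ℝ] W} (hT : F.Cb T) (h : AY pt F l a) :
    AY pt F l fun y x => T x (a y x) :=
  let ⟨h1, _, h2, h3⟩ := h
  ⟨fun y => (cb_sm hT).clm_apply (h1 y), _, (F.mulH l _ _ T).contDiff.comp h2,
    fun y => (h3 y).mulH hT (Maps.triv _)⟩

/-- families of level `j` are multipliers -/
theorem mu [CompactSpace M] {S : ℝ} (hS : Sup F.toPre S) (β : U →L[ℝ] V →L[ℝ] W) (hj : 7 ≤ j)
    (hl : l ≤ j) {α : P → M → U} (h : AY pt F j α) : MuF pt F l fun y x => β (α y x) := by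
  obtain ⟨h1, δ, h2, h3⟩ := h
  have c := fun y => Cb_clm β (Cb_of_compact (F := F.toPre) (h1 y))
  refine ⟨c, _, (F.bilH j l _ _ _ l fun _ => β).contDiff.comp h2, fun y => ?_⟩
  rw [comp_apply, eq_toH (h1 y) (h3 y)]
  exact RepT_eq (Rep₂_left (rep_bilH hS (Lev.left hj hl) (Cb_const β) (Maps₂.triv _)) _)
    (rep_mulH (c y) (Maps.triv _)) fun _ => rfl

theorem tr {a b : P → M → Fm κ K} (h : AY pt F l a) (k : Tr pt F l l' a b) : AY pt F l' b :=
  let ⟨_, _, h2, h3⟩ := h
  let ⟨k1, _, k2, k3⟩ := k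
  ⟨k1, _, ((lft K).contDiff.comp k2).clm_apply h2, fun y =>
    is_lft (k1 y).continuous.aestronglyMeasurable fun h => k3 y h _ (Is.ctH (h3 y) h)⟩

end AY

namespace OP
variable {a b : P → M → Fm κ K}

theorem zero : OP pt F l fun _ _ => (0 : Fm κ K) :=
  ⟨fun _ => 0, contDiff_const, fun _ _ => by simp only [map_zero]; exact Is.zero⟩

theorem add (h : OP pt F l a) (k : OP pt F l b) : OP pt F l fun y x => a y x + b y x :=
  let ⟨_, h2, h3⟩ := h
  let ⟨_, k2, k3⟩ := k
  ⟨_, h2.add k2, fun y h => by simp only [map_add]; exact (h3 y h).add (k3 y h)⟩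

theorem tr (h : OP pt F l a) (k : Tr pt F l l' a b) : OP pt F l' b :=
  let ⟨_, h2, h3⟩ := h
  let ⟨_, _, k2, k3⟩ := k
  ⟨_, k2.clm_comp h2, fun y h => k3 y h _ (h3 y h)⟩

end OP

section tr
variable {a b : P → M → Fm κ K} {A : P → ι → M → En κ}

theorem tr_low (ha : ∀ y, Sm I (a y)) (h : l' ≤ l) : Tr pt F l l' a a :=
  ⟨ha, _, contDiff_const, fun _ _ _ hu => hu.incl h⟩

theorem tr_D (ha : ∀ y, Sm I (a y)) (c : ι) : Tr pt F (l + 1) l a fun y => F.D c (a y) :=
  ⟨fun y => F.sm_D (ha y) c, _, contDiff_const, fun y h u hu => by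
    have := hu.DH (sm_ct (ha y) h) c
    rwa [D_clm F.toPre _ (ha y)] at this⟩

theorem tr_op (ha : ∀ y, Sm I (a y)) {T : P → M → En κ} (hT : MuF pt F l T) :
    Tr pt F l l a fun y x => amp K (T y x) (a y x) :=
  let ⟨h1, _, h2, h3⟩ := hT
  ⟨fun y => ((amp K).contMDiff.comp (cb_sm (h1 y))).clm_apply (ha y), _, h2, fun y h u hu => by
    simp only [ct_amp, h3]; exact hu.mulH (h1 y) (Maps.triv _)⟩

theorem isRes_ct {A : ι → M → En κ} (hA : ∀ a, Sm I (A a)) {α β : M → Fm κ K}
    (h : F.IsRes (aA K A) α β) (k : K) : F.IsRes A (fun z => ct k (α z)) fun z => ct k (β z) :=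
  Mp86.isRes_map (T := fun _ => ct k) (sm_aA hA) contMDiff_const ⟨_, fun _ => le_rfl⟩ (itw_ct k) h

theorem tr_res (hd : DenseRange pt) {C : ℕ → ℝ} (hF : F.Tame C) (hA : ∀ y, Ok F (A y))
    (h1 : ∀ c, MuF pt F l fun y => A y c) (h2 : ∀ c, MuF pt F (l + 1) fun y => A y c)
    (h : ∀ y, F.IsRes (aA K (A y)) (a y) (b y))
    (hL : ∀ y k, ∃ x, Lv F.toPre x ∧ Is F.toPre 0 _ x fun z => ct k (a y z)) :
    Tr pt F l (l + 2) a b := by
  obtain ⟨R, r1, r2⟩ := exists_R hd hF hA h1 h2
  refine ⟨fun y => (h y).1, R, r1, fun y k u hu => ?_⟩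
  obtain ⟨x, x1, x2⟩ := hL y k
  obtain rfl := (hu.incl (Nat.zero_le l)).unique x2
  have e := isRes_ct (hA y).mc.sm (h y) k
  have := ((hA y).res x1 (Mp86.sm_isRes (hA y).mc.sm e) x2).2.2
  rw [Mp86.res_eq (hA y).bmp (hA y).mc e, G0, ContinuousLinearMap.comp_apply,
    (hA y).rh.G0_incl] at this
  rw [r2]
  exact Is.of_incl (Nat.zero_le _) this

end tr

theorem fi_D {S : K →L[ℝ] KK F.toPre κ} {α : M → Fm κ K} (h : FI F S α) (c : ι) :
    ∃ S', FI F S' (F.D c α) := by
  classical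
  obtain ⟨S₁, h1⟩ := exists_lift h.lv 1
  have := h.dop (σ := fun a _ => if a = c then 1 else 0) (B := fun _ => 0)
    (fun _ => Cb_const _) (Cb_const _) h1
  refine ⟨_, cast (congrArg _ (funext fun z => ?_)) this⟩
  simp [Pre.op, aA, apply_ite, amp_one, ite_apply]

end Crest.Agent.X212.Cyt76
end
end

-- ▼ part X212/Cyt76/Cyl
section

/-!
# Row 212, CYC-T (helper76): the cylinder: multipliers, slices, the time derivative
-/

set_option autoImplicit false
set_option linter.unusedSectionVars false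
set_option maxSynthPendingDepth 3
noncomputable section
open scoped Manifold ContDiff Topology InnerProductSpace
open MeasureTheory Set Function Filter

namespace Crest.Agent.X212.Cyt76
open An Sob92 Wz78 Cyc79 Ten12 Cyf70
open Mon62 (HT ic)
open Nd18 (ca)

variable {E : Type} [NormedAddCommGroup E] [NormedSpace ℝ E] [FiniteDimensional ℝ E]
  [MeasurableSpace E] [BorelSpace E]
  {HM : Type} [TopologicalSpace HM] {I : ModelWithCorners ℝ E HM} [I.Boundaryless]
  {Y : Type} [TopologicalSpace Y] [ChartedSpace HM Y] [IsManifold I ∞ Y] [T2Space Y]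
  [MeasurableSpace Y] [BorelSpace Y] [SecondCountableTopology Y] [CompactSpace Y]
  {ι : Type} [Fintype ι]
  {X P : Type} [NormedAddCommGroup X] [NormedSpace ℝ X] {pt : P → X}
  {U V W : Type} [NormedAddCommGroup U] [InnerProductSpace ℝ U] [CompleteSpace U]
  [NormedAddCommGroup V] [InnerProductSpace ℝ V] [CompleteSpace V]
  [NormedAddCommGroup W] [InnerProductSpace ℝ W] [CompleteSpace W]
  {κ : Type} [Fintype κ] [DecidableEq κ]
  {K : Type} [NormedAddCommGroup K] [InnerProductSpace ℝ K] [CompleteSpace K]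
  {F : Fr I Y ι} {l j : ℕ} {S : ℝ}

theorem cbZ {N : Type} [NormedAddCommGroup N] [NormedSpace ℝ N] {f : Y → N} (h : Sm I f) :
    (cyl F).Cb fun x => f x.1 := Cht98.Cb_fst _ (Cb_of_compact h)

/-- sections on `Y` are multipliers on the cylinder -/
theorem AY.muZ (hS : Sup F.toPre S) (β : U →L[ℝ] V →L[ℝ] W) (hl : l + 4 ≤ j) {α : P → Y → U}
    (h : AY pt F j α) : MuF pt (cyl F) l fun y x => β (α y x.1) := by
  obtain ⟨h1, δ, h2, h3⟩ := h
  have c : ∀ {u : Y → U}, Sm I u → (cyl F).Cb fun x => β (u x.1) := fun hu =>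
    cbZ (β.contMDiff.comp hu)
  obtain ⟨T, hT, -⟩ := F.exists_ext (k := j) (p := triv Y U)
    (X := HT (cyl F).toPre V l →L[ℝ] HT (cyl F).toPre W l)
    { toFun := fun u => (cyl F).mulH l _ _ fun x => β (u.1 x.1)
      map_add' := fun u v => by
        rw [← mulH_add (c u.2.1) (Maps.triv _) (c v.2.1) (Maps.triv _)]
        exact congrArg _ (funext fun x => map_add β _ _)
      map_smul' := fun r u => by
        rw [RingHom.id_apply, ← mulH_smul r (c u.2.1) (Maps.triv _)]
        exact congrArg _ (funext fun x => map_smul β _ _) }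
    (C := cK (Option ι) l * (‖β‖ * √|S|)) (mul_nonneg (cK_nonneg _) (by positivity)) fun u => by
      have k := CB_val hS l hl (F.toH j _ u)
      rw [val_toH hS (by omega), Pre.norm_toH] at k
      refine (norm_mulH_le (cb_sm (c u.2.1)) (Cht98.CB_fst _ l (β.contMDiff.comp u.2.1)
        (CB_clm β u.2.1 k)) (Maps.triv _)).trans_eq ?_
      rw [abs_abs, abs_of_nonneg (by unfold Pre.nrm; positivity)]
      ring
  exact ⟨fun y => c (h1 y), _, T.contDiff.comp h2, fun y => by
    rw [comp_apply, AY.eq_toH (h1 y) (h3 y), hT]; rfl⟩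

/-- restriction to the slice -/
theorem exists_ρ (hS : Sup (cyl F).toPre S) :
    ∃ ρ : HT (cyl F).toPre V 4 →L[ℝ] HT F.toPre V 0,
      ∀ u, Is F.toPre 0 _ (ρ u) fun y => (cyl F).val 4 _ u (y, 0) := by
  have c : ∀ u : HT (cyl F).toPre V 4, Continuous fun y => (cyl F).val 4 _ u (y, 0) := fun u =>
    (continuous_val hS le_rfl u).comp (continuous_id.prodMk continuous_const)
  choose r hr using fun u => exists_Is_zero (F := F.toPre) (p := triv Y V) (Cb_const _)
    (fun _ _ => rfl) ((c u).memLp_of_hasCompactSupport (.of_compactSpace _)) (.of_forall fun _ => rfl)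
  refine ⟨LinearMap.mkContinuous ⟨⟨r, fun u v => (hr _).unique ?_⟩, fun a u => (hr _).unique ?_⟩
    (√(F.μ.real univ) * √|S|) fun u => ?_, hr⟩
  · rw [val_add]; exact (hr u).add (hr v)
  · rw [val_smul]; exact (hr u).smul a
  · refine (pow_le_pow_iff_left₀ (norm_nonneg _) (by positivity) two_ne_zero).1 ?_
    rw [LinearMap.coe_mk, AddHom.coe_mk, sq_of_is (hr u), mul_assoc, mul_pow,
      Real.sq_sqrt measureReal_nonneg, ← smul_eq_mul, ← integral_const]
    exact integral_mono_of_nonneg (.of_forall fun _ => sq_nonneg _) (integrable_const _)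
      (.of_forall fun y => pow_le_pow_left₀ (norm_nonneg _) (norm_val_le hS le_rfl u _) 2)

/-- **fields of operators on the slice** -/
theorem OP.slice (hS : Sup (cyl F).toPre S) {a : P → Y × ℝ → Fm κ K} (ha : ∀ y, Sm (IC I) (a y))
    (h : OP pt (cyl F) 4 a) : AY pt F 0 fun y p => a y (p, 0) := by
  obtain ⟨ρ, hρ⟩ := exists_ρ (V := Eu κ) hS
  choose e he hn using fun T : K →L[ℝ] HT (cyl F).toPre (Eu κ) 4 => exists_of_ker (ρ ∘L T)
    (α := fun p => evF _ 4 (p, 0) T) (fun h => by simp only [ct_evF]; exact hρ (T h))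
    (integrable_const ((√(Fintype.card κ) * √|S| * ‖T‖) ^ 2)) (.of_forall fun p =>
      pow_le_pow_left₀ (norm_nonneg _) (norm_evF_le hS le_rfl T _) 2)
  obtain ⟨T, h2, h3⟩ := h
  let L : (K →L[ℝ] HT (cyl F).toPre (Eu κ) 4) →L[ℝ] HT F.toPre (Fm κ K) 0 := LinearMap.mkContinuous
    ⟨⟨e, fun _ _ => ext_ctH fun _ => by simp only [map_add, he, ContinuousLinearMap.comp_apply,
        ContinuousLinearMap.add_apply]⟩,
      fun _ _ => ext_ctH fun _ => by simp only [map_smul, he, ContinuousLinearMap.comp_apply,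
        ContinuousLinearMap.smul_apply, RingHom.id_apply]⟩
    (√(F.μ.real univ) * (√(Fintype.card κ) * √|S|)) fun T => (hn T).trans_eq (by
      rw [integral_const, smul_eq_mul, Real.sqrt_mul measureReal_nonneg, Real.sqrt_sq (by positivity)]
      ring)
  refine ⟨fun y => sm_slice_fst (ha y) 0, _, L.contDiff.comp h2, fun y => is_of_ctH
    (sm_slice_fst (ha y) 0).continuous.aestronglyMeasurable fun h => ?_⟩
  have := hρ (T (pt y) h)
  rw [(h3 y h).val_eq hS le_rfl (sm_ct (ha y) h).continuous] at this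
  exact (he _ h).symm ▸ this

/-! ### the time derivative -/

section time
variable {N N' : Type} [NormedAddCommGroup N] [NormedSpace ℝ N] [NormedAddCommGroup N']
  [NormedSpace ℝ N'] {A : ι → Y → CL V V} {s u : Y × ℝ → V}

theorem Dn_app {T : Y → N →L[ℝ] N'} (hT : Sm I T) {u : Y × ℝ → N} (hu : Sm (IC I) u) :
    (cyl F).D none (fun x => T x.1 (u x)) = fun x => T x.1 ((cyl F).D none u x) := funext fun x => by
  refine (dv_app ((sm_fst hT).mdifferentiableAt (by simp)) (hu.mdifferentiableAt (by simp))).trans ?_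
  rw [show dv (IC I) ((cyl F).e none) (fun x => T x.1) x = 0 from congrFun (D_none_fst F.toPre hT) x,
    ContinuousLinearMap.zero_apply, zero_add]
  rfl

theorem Dn_D {u : Y × ℝ → N} (hu : Sm (IC I) u) (c : Option ι) :
    (cyl F).D none ((cyl F).D c u) = (cyl F).D c ((cyl F).D none u) := by
  cases c
  exacts [rfl, D_comm F.toPre hu _]

/-- the coefficients on `Y` -/
def oa (A : ι → Y → N) : Option ι → Y → N
  | none => fun _ => 0
  | some a => A a

theorem ca_eq (A : ι → Y → N) (c : Option ι) : ca A c = fun x => oa A c x.1 := by cases c <;> rfl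

theorem sm_oa {A : ι → Y → N} (h : ∀ a, Sm I (A a)) (c : Option ι) : Sm I (oa A c) := by
  cases c
  exacts [contMDiff_const, h _]

theorem aA_ca (A : ι → Y → En κ) : aA K (ca A) = ca (aA K A) := funext₂ fun c x => by
  cases c
  exacts [map_zero _, rfl]

theorem Dn_nab (hA : ∀ a, Sm I (A a)) (hu : Sm (IC I) u) (c : Option ι) :
    (cyl F).D none (nab (IC I) (cyl F).e (ca A) c u) =
      nab (IC I) (cyl F).e (ca A) c ((cyl F).D none u) := by
  have e : ∀ u, nab (IC I) (cyl F).e (ca A) c u = (cyl F).D c u + fun x => oa A c x.1 (u x) :=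
    fun u => by cases c <;> rfl
  rw [e, e, Pre.D_add _ ((cyl F).sm_D hu c) ((sm_fst (sm_oa hA c)).clm_apply hu), Dn_D hu,
    Dn_app (sm_oa hA c) hu]

theorem nab_slice (hu : Sm (IC I) u) (a : ι) (t : ℝ) (p : Y) :
    nab (IC I) (cyl F).e (ca A) (some a) u (p, t) = nab I F.e A a (fun p => u (p, t)) p :=
  congrArg (· + _) (D_some F.toPre hu a (p, t))

theorem nab_none (u : Y × ℝ → V) : nab (IC I) (cyl F).e (ca A) none u = (cyl F).D none u :=
  funext fun _ => add_zero _

theorem lap_slice (hA : ∀ a, Sm I (A a)) (hu : Sm (IC I) u) (t : ℝ) (p : Y) :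
    lap (IC I) (cyl F).e (cyl F).dv (ca A) u (p, t) =
      lap I F.e F.dv A (fun p => u (p, t)) p - (cyl F).D none ((cyl F).D none u) (p, t) := by
  have h := fun a => sm_nab (F := cyl F) (Spn45.sm_ca hA) (some a) hu
  simp only [lap, Fintype.sum_option, nab_none, fun a => nab_slice (F := F) (A := A) (h a) a,
    nab_slice hu]
  rw [show (cyl F).dv none (p, t) = 0 from rfl, zero_smul, add_zero, neg_add, add_comm,
    sub_eq_add_neg]
  rfl

theorem Dn_lap (hA : ∀ a, Sm I (A a)) (hu : Sm (IC I) u) :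
    (cyl F).D none (lap (IC I) (cyl F).e (cyl F).dv (ca A) u) =
      lap (IC I) (cyl F).e (cyl F).dv (ca A) ((cyl F).D none u) := funext fun x => by
  have h := fun {u : Y × ℝ → V} (hu : Sm (IC I) u) c => sm_nab (F := cyl F) (Spn45.sm_ca hA) c hu
  have d := fun c => (ContinuousLinearMap.lsmul ℝ ℝ (E := V)).contMDiff.comp (sm_oa F.dv_sm c)
  have e : ∀ c, (cyl F).dv c = fun x => oa F.dv c x.1 := fun c => by cases c <;> rfl
  refine (dv_neg _ x).trans (congrArg _ ((dv_sum' _ fun c => ((h (h hu c) c).add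
    (((cyl F).dv_sm c).smul (h hu c))) x).trans (Finset.sum_congr rfl fun c _ => ?_)))
  refine (dv_add' (h (h hu c) c x) ((((cyl F).dv_sm c).smul (h hu c)) x)).trans ?_
  rw [← Dn_nab hA hu, ← Dn_nab hA (h hu c)]
  rw [e]
  exact congrArg _ (congrFun (Dn_app (F := F) (d c) (h hu c)) x)

theorem isRes_Dn (hA : ∀ a, Sm I (A a)) (h : (cyl F).IsRes (ca A) s u) (hu : (cyl F).Cb u) :
    (cyl F).IsRes (ca A) ((cyl F).D none s) ((cyl F).D none u) :=
  ⟨(cyl F).sm_D h.1 none, cb_bdd (Cb_D hu none), fun x => by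
    rw [← Dn_lap hA h.1, ← funext h.2.2]
    exact (dv_add' (h.1 x) (sm_lap (F := cyl F) (Spn45.sm_ca hA) h.1 x)).symm⟩

theorem isRes_slice (hA : ∀ a, Sm I (A a)) (h : (cyl F).IsRes (ca A) s u) :
    F.IsRes A (fun p => s (p, 0) + (cyl F).D none ((cyl F).D none u) (p, 0)) fun p => u (p, 0) :=
  ⟨sm_slice_fst h.1 0, h.2.1.imp fun _ k _ => k _, fun p => by
    beta_reduce
    rw [← h.2.2 (p, 0), lap_slice hA h.1]; abel⟩

end time

end Crest.Agent.X212.Cyt76
end
end

-- ▼ part X212/Cyt76/Cls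
section

/-!
# Row 212, CYC-T (helper76): smooth families of fields on the cylinder, the bootstrap
-/

set_option autoImplicit false
set_option linter.unusedSectionVars false
set_option maxSynthPendingDepth 3
noncomputable section
open scoped Manifold ContDiff Topology InnerProductSpace
open MeasureTheory Set Function Filter

namespace Crest.Agent.X212.Cyt76
open An Sob92 Wz78 Cyc79 Cyf70 Dgr80
open Nd18 (ca)
open Wrd81 (wd)

variable {E : Type} [NormedAddCommGroup E] [NormedSpace ℝ E] [FiniteDimensional ℝ E]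
  [MeasurableSpace E] [BorelSpace E]
  {HM : Type} [TopologicalSpace HM] {I : ModelWithCorners ℝ E HM} [I.Boundaryless]
  {Y : Type} [TopologicalSpace Y] [ChartedSpace HM Y] [IsManifold I ∞ Y] [T2Space Y]
  [MeasurableSpace Y] [BorelSpace Y] [SecondCountableTopology Y] [CompactSpace Y]
  {ι : Type} [Fintype ι]
  {X P : Type} [NormedAddCommGroup X] [NormedSpace ℝ X] (pt : P → X)
  {κ : Type} [Fintype κ] [DecidableEq κ]
  {K : Type} [NormedAddCommGroup K] [InnerProductSpace ℝ K] [CompleteSpace K]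
  (F : Fr I Y ι) (j : ℕ) (A : P → ι → Y → En κ)

/-- families of multipliers on `Y` -/
def Mf (T : P → Y → En κ) : Prop := AY pt F j fun y x => hsL (T y x)

/-- standing hypotheses -/
structure St : Prop where
  dr : DenseRange pt
  hj : 8 ≤ j
  okY : ∀ y, Ok F (A y)
  okZ : ∀ y, Ok (cyl F) (ca (A y))
  tY : ∃ C, F.Tame C
  tZ : ∃ C, (cyl F).Tame C
  mf : ∀ c, Mf pt F j fun y => A y c

variable (P Y κ K) in
/-- families of fields -/
abbrev Fa : Type := P → Y × ℝ → Fm κ K

/-- fields of smoothing operators -/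
def Q (a : Fa Y P κ K) : Prop := ∀ y, ∃ S, FI (cyl F) S (a y)

/-- the time derivative -/
abbrev Dt (a : Fa Y P κ K) : Fa Y P κ K := fun y => (cyl F).D none (a y)

/-- the resolvent equation -/
def Rs (s u : Fa Y P κ K) : Prop := ∀ y, (cyl F).IsRes (aA K (ca (A y))) (s y) (u y)

/-- a calculus of families -/
structure Cal (L : ℕ) (C : ℕ → Fa Y P κ K → Prop) : Prop where
  q : ∀ {l a}, C l a → Q F a
  zero : ∀ l, C l fun _ _ => 0
  add : ∀ {l a b}, C l a → C l b → C l fun y x => a y x + b y x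
  low : ∀ {l l' a}, l' ≤ l → C l a → C l' a
  D : ∀ {l a} c, C (l + 1) a → C l fun y => (cyl F).D (some c) (a y)
  op : ∀ {l a T}, l ≤ L → Mf pt F j T → C l a → C l fun y x => amp K (T y x.1) (a y x)

/-- closed under the time derivative and the resolvent -/
structure CalZ (C : ℕ → Fa Y P κ K → Prop) : Prop extends Cal pt F j 4 C where
  dn : ∀ {l a}, C (l + 1) a → C l (Dt F a)
  res : ∀ {l s u}, l ≤ 3 → Q F u → Rs F A s u → C l s → C (l + 2) u

/-- the `m`-th time derivative is in the class -/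
def it (C : ℕ → Fa Y P κ K → Prop) : ℕ → ℕ → Fa Y P κ K → Prop
  | 0 => C
  | m + 1 => fun l a => Q F a ∧ it C m l (Dt F a)

/-- all time derivatives are in the class -/
def All (C : ℕ → Fa Y P κ K → Prop) (l : ℕ) (a : Fa Y P κ K) : Prop := ∀ m, it F C m l a

/-- smooth operators on the cylinder -/
def C1 (l : ℕ) (a : Fa Y P κ K) : Prop := Q F a ∧ OP pt (cyl F) l a

/-- smooth sections on the slice -/
def C2 (l : ℕ) (a : Fa Y P κ K) : Prop := Q F a ∧ AY pt F l fun y p => a y (p, 0)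

variable {pt F j A} {L l : ℕ} {C : ℕ → Fa Y P κ K → Prop} {a b s u : Fa Y P κ K}
  {T : P → Y → En κ}

theorem Mf.sm (h : Mf pt F j T) (y : P) : Sm I (T y) := by
  simpa [Function.comp_def] using opL.contMDiff.comp (h.1 y)

theorem Mf.fixed {T : Y → En κ} (h : Sm I T) : Mf pt F j fun _ => T :=
  AY.fixed (hsL.contMDiff.comp h)

theorem Q.cb (h : Q F a) (y : P) : (cyl F).Cb (a y) := (h y).choose_spec.cb

theorem Q.sm (h : Q F a) (y : P) : Sm (IC I) (a y) := cb_sm (h.cb y)

theorem Q.D (h : Q F a) (c : Option ι) : Q F fun y => (cyl F).D c (a y) := fun y =>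
  fi_D (h y).choose_spec c

theorem Q.zero : Q F (fun _ _ => 0 : Fa Y P κ K) := fun _ => ⟨_, FI.zero⟩

theorem Q.add (h : Q F a) (k : Q F b) : Q F fun y x => a y x + b y x := fun y =>
  ⟨_, (h y).choose_spec.add (k y).choose_spec⟩

theorem Q.op (h : Q F a) (hT : Mf pt F j T) : Q F fun y x => amp K (T y x.1) (a y x) := fun y =>
  ⟨_, (h y).choose_spec.op (cbZ (hT.sm y))⟩

theorem Cal.it (h : Cal pt F j L C) (m : ℕ) : Cal pt F j L (it F C m) := by
  induction m with
  | zero => exact h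
  | succ m h =>
    refine ⟨And.left, fun l => ⟨.zero, ?_⟩, fun {l a b} ha hb => ⟨ha.1.add hb.1, ?_⟩,
      fun hl ha => ⟨ha.1, h.low hl ha.2⟩, fun {l a} c ha => ⟨ha.1.D _, ?_⟩,
      fun {l a T} hl hT ha => ⟨ha.1.op hT, ?_⟩⟩
    · exact cast (congrArg _ (funext fun _ => (D_none_fst F.toPre contMDiff_const).symm)) (h.zero l)
    · exact cast (congrArg _ (funext fun y => (Pre.D_add _ (ha.1.sm y) (hb.1.sm y) _).symm))
        (h.add ha.2 hb.2)
    · exact cast (congrArg _ (funext fun y => (Dn_D (ha.1.sm y) _).symm)) (h.D c ha.2)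
    · exact cast (congrArg _ (funext fun y =>
        (Dn_app ((amp K).contMDiff.comp (hT.sm y)) (ha.1.sm y)).symm)) (h.op hl hT ha.2)

theorem Cal.all (h : Cal pt F j L C) : Cal pt F j L (All F C) :=
  ⟨fun k => h.q (k 0), fun l m => (h.it m).zero l, fun a b m => (h.it m).add (a m) (b m),
    fun hl a m => (h.it m).low hl (a m), fun c a m => (h.it m).D c (a m),
    fun hl hT a m => (h.it m).op hl hT (a m)⟩

theorem All.dt (h : All F C l a) : All F C l (Dt F a) := fun m => (h (m + 1)).2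

theorem Rs.dt (h : St pt F j A) (hu : Q F u) (r : Rs F A s u) : Rs F A (Dt F s) (Dt F u) :=
  fun y => by
    have := r y
    rw [aA_ca] at this ⊢
    exact isRes_Dn (sm_aA (h.okY y).mc.sm) this (hu.cb y)

theorem CalZ.it (h : St pt F j A) (k : CalZ pt F j A C) (m : ℕ) : CalZ pt F j A (it F C m) := by
  induction m with
  | zero => exact k
  | succ m ih => exact ⟨k.toCal.it (m + 1), fun ha => ⟨ha.1.D _, ih.dn ha.2⟩,
      fun hl hu r hs => ⟨hu, ih.res hl (hu.D _) (r.dt h hu) hs.2⟩⟩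

namespace Cal
variable (h : Cal pt F j L C)
include h

theorem sum {J : Type} (t : Finset J) {a : J → Fa Y P κ K} (k : ∀ i, C l (a i)) :
    C l fun y x => ∑ i ∈ t, a i y x := by
  classical
  induction t using Finset.induction_on with
  | empty => simpa using h.zero l
  | insert i t hi ih => simpa only [Finset.sum_insert hi] using h.add (k i) ih

theorem smul (hl : l ≤ L) {f : Y → ℝ} (hf : Sm I f) (k : C l a) :
    C l fun y x => f x.1 • a y x := by
  simpa only [amp_smul_one, ContinuousLinearMap.smul_apply, ContinuousLinearMap.one_apply] using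
    h.op hl (Mf.fixed (T := fun x => f x • 1) (hf.smul contMDiff_const)) k

theorem cm (hA : St pt F j A) (hl : l ≤ L) {χ : Y → ℝ} (hχ : Sm I χ) (k : C (l + 1) a) :
    C l fun y => (cyl F).op (cmS (cyl F) _ fun x => χ x.1)
      (cmB (cyl F) (aA K (ca (A y))) fun x => χ x.1) (a y) := by
  have k' := h.low (Nat.le_succ l) k
  have d := fun c => F.sm_D hχ c
  refine cast (congrArg _ (funext₂ fun y x => ?_)) (h.sum Finset.univ fun c =>
    h.add (h.smul hl (f := fun x => -2 * F.D c χ x) (contMDiff_const.mul (d c))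
      (h.add (h.D c k) (h.op hl (hA.mf c) k')))
      (h.smul hl (f := fun x => -(F.D c (F.D c χ) x + F.dv c x * F.D c χ x))
        ((F.sm_D (d c) c).add ((F.dv_sm c).mul (d c))).neg k'))
  have e0 : (cyl F).D none (fun x => χ x.1) = fun _ => 0 := D_none_fst F.toPre hχ
  have e1 : ∀ {g : Y → ℝ}, Sm I g → ∀ c, (cyl F).D (some c) (fun x => g x.1) = fun x => F.D c g x.1 :=
    fun hg c => D_some_fst F.toPre hg c
  have e2 : (cyl F).D none (fun _ => (0 : ℝ)) = fun _ => 0 := D_none_fst F.toPre contMDiff_const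
  simp only [Pre.op, cmS, cmB, Fintype.sum_option, e0, e1 hχ, e1 (d _), e2, mul_zero, zero_smul,
    add_zero, zero_add, zero_apply, sum_apply, neg_zero, add_apply, neg_apply, smul_apply,
    ContinuousLinearMap.id_apply, ← Finset.sum_add_distrib, smul_add, neg_smul, sub_eq_add_neg,
    add_assoc]
  rfl

end Cal

namespace St
variable (h : St pt F j A)
include h

theorem supY : Sup F.toPre (h.tY.choose 0) := Sup.of_tame h.tY.choose_spec

theorem muY (hT : Mf pt F j T) (hl : l ≤ j) : MuF pt F l T := by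
  simpa only [opL_hsL] using AY.mu h.supY opL (by have := h.hj; omega) hl hT

theorem muZ (hT : Mf pt F j T) (hl : l ≤ 4) : MuF pt (cyl F) l fun y x => T y x.1 := by
  simpa only [opL_hsL] using AY.muZ h.supY opL (by have := h.hj; omega) hT

theorem muA (hl : l ≤ 4) (c : Option ι) : MuF pt (cyl F) l fun y => ca (A y) c := by
  cases c
  exacts [MuF.fixed (Cb_const _), h.muZ (h.mf _) hl]

theorem c1 : CalZ pt F j A (C1 (K := K) pt F) where
  q := And.left
  zero _ := ⟨.zero, .zero⟩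
  add a b := ⟨a.1.add b.1, a.2.add b.2⟩
  low hl a := ⟨a.1, a.2.tr (tr_low a.1.sm hl)⟩
  D c a := ⟨a.1.D _, a.2.tr (tr_D a.1.sm _)⟩
  op hl hT a := ⟨a.1.op hT, a.2.tr (tr_op a.1.sm (h.muZ hT hl))⟩
  dn a := ⟨a.1.D _, a.2.tr (tr_D a.1.sm _)⟩
  res hl hu r s := ⟨hu, s.2.tr (tr_res h.dr h.tZ.choose_spec h.okZ (h.muA (by omega))
    (h.muA (by omega)) r fun y k => ⟨_, (s.1 y).choose_spec.lv k, (s.1 y).choose_spec.is k⟩)⟩

omit h in
theorem c2 (h : St pt F j A) : Cal pt F j j (C2 (κ := κ) (K := K) pt F) where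
  q := And.left
  zero _ := ⟨.zero, .zero⟩
  add a b := ⟨a.1.add b.1, a.2.add b.2⟩
  low hl a := ⟨a.1, a.2.tr (tr_low a.2.1 hl)⟩
  D c a := ⟨a.1.D _, (a.2.tr (tr_D a.2.1 c)).congr fun y x => D_some F.toPre (a.1.sm y) c (x, 0)⟩
  op hl hT a := ⟨a.1.op hT, a.2.tr (tr_op a.2.1 (h.muY hT hl))⟩

theorem slice (k : All F (C1 pt F) 4 a) : All F (C2 pt F) 0 a := fun m => by
  replace k := k m
  induction m generalizing a with
  | zero => exact ⟨k.1, k.2.slice (Sup.of_tame h.tZ.choose_spec) k.1.sm⟩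
  | succ m ih => exact ⟨k.1, ih k.2⟩

/-- **the bootstrap** -/
theorem boot (hl : l + 1 ≤ j) (r : Rs F A s u) (hs : All F (C2 pt F) l s)
    (hu : All F (C2 pt F) l u) : All F (C2 pt F) (l + 2) u := fun m => by
  induction m generalizing s u with
  | succ m ih => exact ⟨(hu 0).1, ih (r.dt h (hu 0).1) hs.dt hu.dt⟩
  | zero =>
    have k := (hs 0).2.add (hu.dt.dt 0).2
    refine ⟨(hu 0).1, k.tr (tr_res h.dr h.tY.choose_spec h.okY (fun c => h.muY (h.mf c) (by omega))
      (fun c => h.muY (h.mf c) hl) (fun y => ?_) fun y v =>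
        ⟨_, lv_toH ⟨_, mem_triv (sm_ct (k.1 y) v) (.of_compactSpace _)⟩, Is.toH _⟩)⟩
    have := r y
    rw [aA_ca] at this
    exact isRes_slice (sm_aA (h.okY y).mc.sm) this

theorem a1 : CalZ pt F j A (All F (C1 (K := K) pt F)) :=
  ⟨h.c1.toCal.all, fun a m => (h.c1.it h m).dn (a m), fun hl hu r s m =>
    (h.c1.it h m).res hl hu r (s m)⟩

theorem a2 : Cal pt F j j (All F (C2 (κ := κ) (K := K) pt F)) := h.c2.all

end St

/-! ### base fields -/

section base
variable {p : Y → En κ} {φ f' : Y → ℝ}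

variable (F A p φ f') in
/-- the base fields of all cut-off functions are in the class -/
def BF (C : Fa Y P κ (KK (cyl F).toPre κ) → Prop) : Prop := ∀ (χ : Y → ℝ) (t : ℝ), Sm I χ → 0 < t →
  (∀ x, φ x < t → χ x = 0) →
    C fun y => bs (cyl F) (ca (A y)) (fun x => p x.1) (fun x => χ x.1) fun x => f' x.1

variable (h : St pt F j A) (hp : Sm I p) (hφ : Sm I φ) (hf : Sm I f')
  (h0 : ∀ x, f' x ≠ 0 → φ x ≤ 0) {C : ℕ → Fa Y P κ (KK (cyl F).toPre κ) → Prop}
include hφ hf h0

theorem sepZ {χ : Y → ℝ} {t : ℝ} (hχ : Sm I χ) (ht : 0 < t) (h1 : ∀ x, φ x < t → χ x = 0) :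
    Sep (cyl F).toPre (fun x => χ x.1) fun x => f' x.1 :=
  sep_cut (φ := fun x => φ x.1) (cbZ hf) (cbZ hφ) (fun x => h0 x.1) (cbZ hχ) ht fun x => h1 x.1

include h hp

theorem bf_q : BF F A p φ f' (Q F) := fun _ _ hχ ht h1 y =>
  ⟨_, fi_bs (h.okZ y) (sepZ hφ hf h0 hχ ht h1) (cbZ hp)⟩

theorem BF.step (hC : Cal pt F j L C) (hl : l ≤ L) (k : BF F A p φ f' (C (l + 1))) :
    BF F A p φ f' fun u => ∃ s, C l s ∧ Rs F A s u := fun χ t hχ ht h1 => by
  obtain ⟨χ', c1, c2, c3, -⟩ := exists_cut (F := F.toPre) (Cb_of_compact hφ)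
    (show t / 4 < t / 2 by linarith)
  have t4 : 0 < t / 4 := by linarith
  exact ⟨_, hC.cm h hl hχ (k χ' _ (cb_sm c1) t4 fun x hx => c2 x hx.le), fun y =>
    bs_res (φ := fun x => φ x.1) (h.okZ y) (cbZ hp) (sepZ hφ hf h0 hχ ht h1)
      (sepZ hφ hf h0 (cb_sm c1) t4 fun x hx => c2 x hx.le) (hφ.continuous.comp continuous_fst)
      (show t / 2 < t by linarith) (fun x => h1 x.1) fun x hx => c3 _ hx.le⟩

theorem BF.up (hC : CalZ pt F j A C) (hl : l ≤ 3) (k : BF F A p φ f' (C (l + 1))) :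
    BF F A p φ f' (C (l + 2)) := fun χ t hχ ht h1 =>
  let ⟨_, s1, s2⟩ := k.step h hp hφ hf h0 hC.toCal (by omega) χ t hχ ht h1
  hC.res hl (bf_q h hp hφ hf h0 χ t hχ ht h1) s2 s1

theorem bf_two : BF F A p φ f' (C1 pt F 2) := fun χ t hχ ht h1 => by
  obtain ⟨R, r1, r2⟩ := exists_R h.dr h.tZ.choose_spec h.okZ (h.muA (l := 0) (by omega))
    (h.muA (by omega))
  refine ⟨bf_q h hp hφ hf h0 χ t hχ ht h1, fun v => smulH _ 2 _ (fun x => χ x.1) ∘L R v ∘L
    smulH _ 0 _ (fun x => f' x.1) ∘L mO _ fun x => p x.1,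
    contDiff_const.clm_comp (r1.clm_comp contDiff_const), fun y k => Is.of_incl (Nat.zero_le 2) ?_⟩
  rw [ContinuousLinearMap.comp_apply, Rep_incl (rep_smulH (cbZ hχ)) (rep_smulH (cbZ hχ))
    (Nat.zero_le _) (Nat.zero_le _), r2]
  exact (fi_bs (h.okZ y) (sepZ hφ hf h0 hχ ht h1) (cbZ hp)).is k

theorem bf_five : BF F A p φ f' (All F (C1 pt F) 5) := by
  have u := fun m l hl => BF.up (l := l) h hp hφ hf h0 (h.c1.it h m) hl
  have k : ∀ m, BF F A p φ f' (it F (C1 pt F) m 2) := fun m => by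
    induction m with
    | zero => exact bf_two h hp hφ hf h0
    | succ m ih => exact fun χ t hχ ht h1 => ⟨bf_q h hp hφ hf h0 χ t hχ ht h1,
        (h.c1.it h m).dn (u m 1 (by omega) ih χ t hχ ht h1)⟩
  exact fun χ t hχ ht h1 m =>
    u m 3 le_rfl (u m 2 (by omega) (u m 1 (by omega) (k m))) χ t hχ ht h1

theorem bf_top (hl : l ≤ j) : BF F A p φ f' (All F (C2 pt F) (l + 1)) := by
  have := h.hj
  have k5 := bf_five h hp hφ hf h0
  induction l with
  | zero =>
    intro χ t hχ ht h1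
    obtain ⟨s, s1, s2⟩ := k5.step h hp hφ hf h0 h.a1.toCal le_rfl χ t hχ ht h1
    exact h.a2.low (by omega) (h.boot (l := 0) (by omega) s2 (h.slice s1)
      (h.slice (h.a1.low (by omega) (k5 χ t hχ ht h1))))
  | succ l ih =>
    intro χ t hχ ht h1
    obtain ⟨s, s1, s2⟩ := (ih (by omega)).step h hp hφ hf h0 h.a2 (by omega) χ t hχ ht h1
    exact h.boot hl s2 s1 (h.a2.low (by omega) (ih (by omega) χ t hχ ht h1))

end base

/-! ### words -/

variable (pt F j) in
/-- the class of words -/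
structure WC (a : Fa Y P κ K) : Prop where
  z : All F (C1 pt F) 4 a
  y : All F (C2 pt F) j a

variable (I) in
/-- `t`-independent letters -/
def LZ : La (Y × ℝ) → Prop
  | .mul g => ∃ f, Sm I f ∧ g = fun x => f x.1
  | .G => True

theorem WC.ay (k : WC pt F j a) : AY pt F j fun y p => a y (p, 0) := (k.y 0).2

theorem wc_bs (h : St pt F j A) {p : Y → En κ} (hp : Sm I p) {f f' : Y → ℝ} (hs : Sep F.toPre f f') :
    WC pt F j fun y => bs (cyl F) (ca (A y)) (fun x => p x.1) (fun x => f x.1) fun x => f' x.1 := by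
  obtain ⟨h1, h2, φ, h3, h4, h5⟩ := hs
  have e : ∀ x, φ x < 1 → f x = 0 := fun x hx => by_contra fun e => (h4 x e).not_gt hx
  exact ⟨h.a1.low (by omega) (bf_five h hp (cb_sm h3) (cb_sm h2) h5 f 1 (cb_sm h1) one_pos e),
    h.a2.low (by omega) (bf_top h hp (cb_sm h3) (cb_sm h2) h5 le_rfl f 1 (cb_sm h1) one_pos e)⟩

section bil
variable {U V W : Type} [NormedAddCommGroup U] [InnerProductSpace ℝ U] [CompleteSpace U]
  [NormedAddCommGroup V] [InnerProductSpace ℝ V] [CompleteSpace V]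
  [NormedAddCommGroup W] [InnerProductSpace ℝ W] [CompleteSpace W]

theorem AY.bil {S : ℝ} (hS : Sup F.toPre S) (β : U →L[ℝ] V →L[ℝ] W) (hj : 7 ≤ j) {a : P → Y → U}
    {b : P → Y → V} (h : AY pt F j a) (k : AY pt F j b) : AY pt F j fun y x => β (a y x) (b y x) :=
  let ⟨h1, _, h2, h3⟩ := h
  let ⟨k1, _, k2, k3⟩ := k
  ⟨fun y => (β.contMDiff.comp (h1 y)).clm_apply (k1 y), _,
    ((F.bilH j j _ _ _ j fun _ => β).contDiff.comp h2).clm_apply k2,
    fun y => Is.bilH hS (Lev.self hj) (Cb_const β) (Maps₂.triv _) (h3 y) (k3 y)⟩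

theorem AY.sub {a b : P → Y → V} (h : AY pt F l a) (k : AY pt F l b) :
    AY pt F l fun y x => a y x - b y x :=
  (h.add (k.clm (Cb_const (-ContinuousLinearMap.id ℝ V)))).congr fun _ _ => sub_eq_add_neg _ _

end bil

namespace WC
variable (h : St pt F j A)
include h

theorem op (hT : Mf pt F j T) (k : WC pt F j a) : WC pt F j fun y x => amp K (T y x.1) (a y x) :=
  ⟨h.a1.op le_rfl hT k.z, h.a2.op le_rfl hT k.y⟩

theorem res (k : WC pt F j a) : WC pt F j (fun y => (cyl F).res (aA K (ca (A y))) (a y)) ∧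
    All F (C2 pt F) (j + 1) fun y => (cyl F).res (aA K (ca (A y))) (a y) := by
  have := h.hj
  have r := fun y => ((k.z 0).1 y).choose_spec.res (h.okZ y)
  have h1 := h.a1.res (l := 2) (by omega) (fun y => ⟨_, (r y).2⟩) (fun y => (r y).1)
    (h.a1.low (by omega) k.z)
  have h2 : ∀ l ≤ j, All F (C2 pt F) (l + 1) fun y => (cyl F).res (aA K (ca (A y))) (a y) := by
    intro l hl
    induction l with
    | zero =>
      exact h.a2.low (by omega) (h.boot (l := 0) (by omega) (fun y => (r y).1)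
        (h.a2.low (by omega) k.y) (h.slice h1))
    | succ l ih =>
      exact h.boot hl (fun y => (r y).1) (h.a2.low (by omega) k.y)
        (h.a2.low (by omega) (ih (by omega)))
  exact ⟨⟨h1, h.a2.low (by omega) (h2 j le_rfl)⟩, h2 j le_rfl⟩

theorem sl {t : La (Y × ℝ)} (ht : LZ I t) (k : WC pt F j a) :
    WC pt F j fun y => sl (cyl F) (aA K (ca (A y))) (laV _ t) (a y) := by
  rcases t with g | _
  · obtain ⟨f, hf, rfl⟩ := ht
    exact ⟨h.a1.smul le_rfl hf k.z, h.a2.smul le_rfl hf k.y⟩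
  · exact (k.res h).1

theorem wd {w : List (La (Y × ℝ))} (hw : ∀ t ∈ w, LZ I t) (k : WC pt F j a) :
    WC pt F j fun y => wd (Dgr80.sl (cyl F) (aA K (ca (A y)))) (a y) (w.map (laV _)) := by
  induction w with
  | nil => exact k
  | cons t w ih => exact (ih fun s hs => hw s (by simp [hs])).sl h (hw t (by simp))

theorem bk {w : List (La (Y × ℝ))} (hw : ∀ t ∈ w, LZ I t) (k : WC pt F j a) :
    WC pt F j fun y => bk (cyl F) (aA K (ca (A y))) (w.map (laV _)) (a y) := by
  simp only [bk_laV]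
  exact k.wd h fun t ht => hw t (List.mem_reverse.1 ht)

theorem nab (k : All F (C2 pt F) (j + 1) a) (c : ι) : AY pt F j fun y p =>
    nab (IC I) (cyl F).e (aA K (ca (A y))) (some c) (a y) (p, 0) :=
  (h.a2.add (h.a2.D c k) (h.a2.op le_rfl (h.mf c) (h.a2.low (Nat.le_succ j) k)) 0).2

theorem gc {U : Type} [NormedAddCommGroup U] [InnerProductSpace ℝ U] [CompleteSpace U]
    (r : CL U (CL (Fm κ K) (Fm κ K))) {w : List (La (Y × ℝ))} (hw : ∀ t ∈ w, LZ I t)
    (k : WC pt F j a) (k' : WC pt F j b) (c : ι) : AY pt F j fun y p =>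
      gc (cyl F) (aA K (ca (A y))) r (a y) (w.map (laV _)) (b y) (p, 0) (some c) := by
  have := h.hj
  induction w generalizing b with
  | nil => exact AY.zero
  | cons t w ih =>
    have hw' : ∀ s ∈ w, LZ I s := fun s hs => hw s (by simp [hs])
    rcases t with g | _
    · have := ih hw' (k'.sl h (hw (.mul g) (by simp)))
      simp only [← slT_laV] at this
      exact this
    · obtain ⟨a1, a2⟩ := (k.wd h hw').res h
      obtain ⟨b1, b2⟩ := k'.res h
      exact (ih hw' b1).sub ((a1.ay.bil h.supY (tpL r) (by omega) (nab h b2 c)).add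
        (b1.ay.bil h.supY (tpL r) (by omega) (nab h a2 c)))

end WC

end Crest.Agent.X212.Cyt76
end
end

-- ▼ part X212/Cyt76/Yw

/-!
# Row 212, CYC-T (helper76): words on the cross-section; descent of dominated functions
-/

set_option autoImplicit false
set_option linter.unusedSectionVars false
set_option maxSynthPendingDepth 3
noncomputable section
open scoped Manifold ContDiff Topology InnerProductSpace
open MeasureTheory Set Function Filter

namespace Crest.Agent.X212.Cyt76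
open An Sob92 Wz78 Cyc79 Cyf70 Dgr80
open Nd18 (ca laOK)
open Wrd81 (wd)

variable {E : Type} [NormedAddCommGroup E] [NormedSpace ℝ E] [FiniteDimensional ℝ E]
  [MeasurableSpace E] [BorelSpace E]
  {HM : Type} [TopologicalSpace HM] {I : ModelWithCorners ℝ E HM} [I.Boundaryless]
  {Y : Type} [TopologicalSpace Y] [ChartedSpace HM Y] [IsManifold I ∞ Y] [T2Space Y]
  [MeasurableSpace Y] [BorelSpace Y] [SecondCountableTopology Y] [CompactSpace Y]
  {ι : Type} [Fintype ι]
  {X P : Type} [NormedAddCommGroup X] [NormedSpace ℝ X] {pt : P → X}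
  {κ : Type} [Fintype κ] [DecidableEq κ]
  {U V W : Type} [NormedAddCommGroup U] [InnerProductSpace ℝ U] [CompleteSpace U]
  [NormedAddCommGroup V] [InnerProductSpace ℝ V] [CompleteSpace V]
  [NormedAddCommGroup W] [InnerProductSpace ℝ W] [CompleteSpace W]
  {F : Fr I Y ι} {j l : ℕ} {A : P → ι → Y → En κ}

theorem AY.mul {T : P → Y → V →L[ℝ] W} (hT : MuF pt F l T) {a : P → Y → V} (h : AY pt F l a) :
    AY pt F l fun y x => T y x (a y x) :=
  let ⟨h1, _, h2, h3⟩ := h
  let ⟨k1, _, k2, k3⟩ := hT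
  ⟨fun y => (cb_sm (k1 y)).clm_apply (h1 y), _, k2.clm_apply h2, fun y => by
    rw [k3]; exact (h3 y).mulH (k1 y) (Maps.triv _)⟩

theorem AY.low {a : P → Y → V} {l' : ℕ} (hl : l' ≤ l) (h : AY pt F l a) : AY pt F l' a :=
  let ⟨h1, _, h2, h3⟩ := h
  ⟨h1, _, (F.incl l l' _).contDiff.comp h2, fun y => (h3 y).incl hl⟩

theorem AY.D {a : P → Y → V} (h : AY pt F (l + 1) a) (c : ι) : AY pt F l fun y => F.D c (a y) :=
  let ⟨h1, _, h2, h3⟩ := h
  ⟨fun y => F.sm_D (h1 y) c, _, (ContinuousLinearMap.contDiff _).comp h2,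
    fun y => (h3 y).DH (h1 y) c⟩

theorem AY.pi {J : Type} [Fintype J] {g : P → Y → Fm J V} (h : ∀ c, AY pt F l fun y x => g y x c) :
    AY pt F l g := by
  classical
  have : ∀ t : Finset J, AY pt F l fun y x => ∑ c ∈ t, Map77.ij V c (g y x c) := fun t => by
    induction t using Finset.induction_on with
    | empty => simpa using AY.zero
    | insert i t hi ih => simpa only [Finset.sum_insert hi] using ((h i).clm (Cb_const _)).add ih
  exact (this Finset.univ).congr fun y x => PiLp.ext fun c => (Map77.sum_ij _ c).symm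

theorem AY.inner {a b : P → Y → V} (h : AY pt F l a) (k : AY pt F l b) :
    ∃ f : X → ℝ, Continuous f ∧ ∀ y, f (pt y) = ∫ x, ⟪a y x, b y x⟫_ℝ ∂F.μ := by
  obtain ⟨h1, δ, h2, h3⟩ := h.low (Nat.zero_le _)
  obtain ⟨k1, ε, k2, k3⟩ := k.low (Nat.zero_le _)
  refine ⟨fun v => ⟪δ v, ε v⟫_ℝ, h2.continuous.inner k2.continuous, fun y => ?_⟩
  beta_reduce
  rw [AY.eq_toH (h1 y) (h3 y)]
  exact is_inner (k3 y) _

theorem slT_la (F : Fr I Y ι) (A : ι → Y → CL V V) (t : La Y) :
    slT F A (laV V t) = sl F A (laV V t) := by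
  cases t
  · funext l x
    simp [slT, sl, laV, ContinuousLinearMap.one_def, ContinuousLinearMap.adjoint_id]
  · rfl

namespace St
variable (h : St pt F j A) {a b : P → Y → Eu κ}
include h

theorem resY (k : AY pt F j a) : AY pt F (j + 1) fun y => F.res (A y) (a y) := by
  obtain ⟨m, rfl⟩ : ∃ m, j = m + 1 := ⟨j - 1, by have := h.hj; omega⟩
  obtain ⟨R, r1, r2⟩ := exists_R (l := m) h.dr h.tY.choose_spec h.okY
    (fun c => h.muY (h.mf c) (by omega)) fun c => h.muY (h.mf c) le_rfl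
  obtain ⟨k1, δ, k2, k3⟩ := k.low (Nat.le_succ m)
  refine ⟨fun y => Mp86.sm_res _ _ _, _, r1.clm_apply k2, fun y => ?_⟩
  have e := (k3 y).incl (Nat.zero_le m)
  have := ((h.okY y).res (AY.eq_toH (k1 y) e ▸ lv_toH _) (k1 y) e).2.2
  rw [G0, ContinuousLinearMap.comp_apply, (h.okY y).rh.G0_incl] at this
  rw [r2]
  exact Is.of_incl (Nat.zero_le _) this

theorem nabY (k : AY pt F (j + 1) a) (c : ι) : AY pt F j fun y => nab I F.e (A y) c (a y) :=
  (k.D c).add ((k.low (Nat.le_succ j)).mul (h.muY (h.mf c) le_rfl))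

theorem slY {t : La Y} (ht : laOK I t) (k : AY pt F j a) :
    AY pt F j fun y => sl F (A y) (laV _ t) (a y) := by
  cases t
  exacts [k.clm (Cb_of_compact (ContMDiff.smul ht contMDiff_const)), (h.resY k).low (Nat.le_succ j)]

variable {w : List (La Y)} (hw : ∀ t ∈ w, laOK I t)
include hw

theorem wdY (k : AY pt F j a) : AY pt F j fun y => wd (sl F (A y)) (a y) (w.map (laV _)) := by
  induction w with
  | nil => exact k
  | cons t w ih => exact h.slY (hw t (by simp)) (ih fun s hs => hw s (by simp [hs]))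

theorem bkY (k : AY pt F j a) : AY pt F j fun y => bk F (A y) (w.map (laV _)) (a y) := by
  induction w generalizing a with
  | nil => exact k
  | cons t w ih =>
    simp only [List.map_cons, bk, slT_la]
    exact ih (fun s hs => hw s (by simp [hs])) (h.slY (hw t (by simp)) k)

theorem gcY (r : CL U (En κ)) (k : AY pt F j a) (k' : AY pt F j b) :
    AY pt F j fun y => gc F (A y) r (a y) (w.map (laV _)) (b y) := by
  have := h.hj
  induction w generalizing b with
  | nil => exact AY.zero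
  | cons t w ih =>
    have hw' : ∀ s ∈ w, laOK I s := fun s hs => hw s (by simp [hs])
    rcases t with g | _
    · have := ih hw' (h.slY (hw (.mul g) (by simp)) k')
      simp only [← slT_la] at this
      exact this
    · have a2 := h.resY (h.wdY hw' k)
      have b2 := h.resY k'
      have a1 := a2.low (Nat.le_succ j)
      have b1 := b2.low (Nat.le_succ j)
      exact (ih hw' b1).sub (AY.pi fun c => (a1.bil h.supY (tpL r) (by omega) (h.nabY b2 c)).add
        (b1.bil h.supY (tpL r) (by omega) (h.nabY a2 c)))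

end St

open Mp86 in
/-- a `t`-independent function dominated on the cylinder is dominated on the cross-section -/
theorem dom_slice {C : ℕ → ℝ} (hF : F.Tame C) {g : Y → ℝ} (hg : Sm I g) (g0 : ∀ x, 0 ≤ g x) {β : ℝ}
    (h : Dom (cyl F) β fun x => g x.1) : Dom F (2 * β) g := by
  obtain ⟨k, k1, k2⟩ := h
  obtain ⟨H, H1, ⟨c, H2⟩, H3⟩ := Mon62.exists_res (A := fun _ _ => (0 : ℝ →L[ℝ] ℝ)) hF
    (fun _ => contMDiff_const) (fun _ _ _ _ => by simp) hg
  have n : ∀ {u : Y → ℝ} a, nab I F.e (fun _ _ => 0) a u = dv I (F.e a) u :=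
    fun a => funext fun x => add_zero _
  have e : ∀ x, Lop I F.e F.dv H x = H x - g x := fun x => by
    rw [← H3 x]; simp only [lap, n, Lop]; ring
  have eZ : ∀ x, Lop (IC I) (cyl F).e (cyl F).dv (fun x => H x.1) x = H x.1 - g x.1 := fun x => by
    have d := fun (s : Y → ℝ) a => Spn45.dv_fst (e := F.e) s a
    have d' : ∀ (s : Y → ℝ) a, dv (IC I) ((cyl F).e a) (fun x => s x.1) = _ := d
    rw [← e, Lop, Fintype.sum_option]
    simp only [d', ca]
    rw [Mp86.dv_const, smul_zero, add_zero, zero_add]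
    rfl
  have p : ∀ x, -H x ≤ 0 := fun x => maxp_bdd (f := fun x => -H x) (C := c) bumps_of_compact
    finite_empty (by simp) (vf F.toPre) (by simp) (by simp) (fun y _ => cm2 H1.neg y)
    (fun y _ => (neg_le_abs _).trans (H2 y)) (fun δ hδ => ⟨δ, hδ, fun y _ hy => by
      have := Lop_mul (b := F.dv) (-1) (vf F.toPre y) (cm2 H1 y)
      simp only [neg_mul, one_mul, e] at this
      linarith [g0 y]⟩) x (by simp)
  have s2 : Sm (IC I) fun x => (1 / 2 : ℝ) * k x := contMDiff_const.mul k1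
  have q : ∀ x : Y × ℝ, H x.1 + 1 / 2 * k x ≤ β := fun x => maxp_bdd
    (f := fun x => H x.1 + 1 / 2 * k x) (C := c + 1 / 2 * β) (Spn45.bumps_cyl F)
    finite_empty (by simp) (vf (cyl F).toPre) (by simp) (by simp)
    (fun y _ => cm2 ((sm_fst H1).add s2) y)
    (fun y _ => by linarith [(le_abs_self _).trans (H2 y.1), (k2 y).2.1])
    (fun δ hδ => ⟨δ, hδ, fun y _ hy => by
      rw [Lop_add (vf _ y) (cm2 (sm_fst H1) y) (cm2 s2 y), Lop_mul _ (vf _ y) (cm2 k1 y), eZ]
      linarith [(k2 y).2.1, (k2 y).2.2]⟩) x (by simp)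
  have s3 : Sm I fun x => 2 * H x := contMDiff_const.mul H1
  refine ⟨fun x => 2 * β - 2 * H x, contMDiff_const.sub s3, fun x => ⟨?_, ?_, ?_⟩⟩
  · linarith [q (x, 0), (k2 (x, 0)).1]
  · linarith [p x]
  · rw [Lop_sub (vf _ x) (cm2 contMDiff_const x) (cm2 s3 x), Lop_const, Lop_mul _ (vf _ x) (cm2 H1 x), e]
    linarith [q (x, 0), (k2 (x, 0)).1]

end Crest.Agent.X212.Cyt76
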